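import Vale.Agent.P160R67.Defs

/-! # P160: the law of the random symmetric sign matrix is uniform -/

open MeasureTheory ProbabilityTheory Set

namespace Vale.Agent.P160R

/-- A probability measure with equal atoms on a finite conull set is the proportion. -/
theorem real_eq_ratio {α : Type*} [MeasurableSpace α] [MeasurableSingletonClass α] (μ : Measure α)
    [IsProbabilityMeasure μ] {S : Set α} (hS : S.Finite) (h0 : μ Sᶜ = 0) {c : ℝ}
    (hc : ∀ x ∈ S, μ.real {x} = c) (E : Set α) :
    μ.real E = ((S ∩ E).ncard : ℝ) / (S.ncard : ℝ) := by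
  have key : ∀ F : Set α, μ.real F = ((S ∩ F).ncard : ℝ) * c := by
    intro F
    have h1 : μ.real F = μ.real (S ∩ F) := by
      rw [inter_comm, measureReal_def, measureReal_def, measure_inter_conull h0]
    have hf : (S ∩ F).Finite := hS.inter_of_left F
    rw [h1, ncard_eq_toFinset_card _ hf]
    conv_lhs => rw [← hf.coe_toFinset, ← sum_measureReal_singleton]
    rw [Finset.sum_congr rfl fun x hx => hc x (hf.mem_toFinset.1 hx).1, Finset.sum_const,
      nsmul_eq_mul]
  have h1 := key univ
  rw [probReal_univ, inter_univ] at h1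
  have h2 : (S.ncard : ℝ) ≠ 0 := fun h => by simp [h] at h1
  rw [key E, eq_div_iff h2, mul_assoc, mul_comm c, ← h1, mul_one]

/-- the positions on and above the diagonal -/
abbrev Up (n : ℕ) : Type := {p : Fin n × Fin n // p.1 ≤ p.2}

variable {n : ℕ}

/-- the symmetric matrix with given entries on and above the diagonal -/
def sym (x : Up n → ℝ) : Matrix (Fin n) (Fin n) ℝ :=
  fun i j => x ⟨(min i j, max i j), min_le_max⟩

theorem sym_symm (x : Up n → ℝ) (i j : Fin n) : sym x j i = sym x i j := by
  simp only [sym, min_comm, max_comm]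

theorem sym_up (x : Up n → ℝ) (p : Up n) : sym x p.1.1 p.1.2 = x p := by
  obtain ⟨⟨i, j⟩, h⟩ := p
  have h' : i ≤ j := h
  simp only [sym, min_eq_left h', max_eq_right h']

theorem sym_injective : Function.Injective (sym (n := n)) := fun x y h =>
  funext fun p => by rw [← sym_up x p, h, sym_up]

theorem sym_of_symm {B : Matrix (Fin n) (Fin n) ℝ} (h : ∀ i j, B j i = B i j) :
    sym (fun p => B p.1.1 p.1.2) = B := by
  ext i j
  rcases le_total i j with hij | hij
  · simp only [sym, min_eq_left hij, max_eq_right hij]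
  · simp only [sym, min_eq_right hij, max_eq_left hij, h]

theorem measurableSet_sing : MeasurableSet {x : Up n → ℝ | (sym x).det = 0} := by
  have h : Continuous fun x : Up n → ℝ => (sym x).det :=
    Continuous.matrix_det (continuous_pi fun i => continuous_pi fun j => continuous_apply _)
  exact (isClosed_eq h continuous_const).measurableSet

/-- the law of one entry -/
noncomputable abbrev sgn : Measure ℝ := uniformOn {-1, 1}

theorem sgn_prob : IsProbabilityMeasure sgn :=
  isProbabilityMeasure_uniformOn (toFinite _) ⟨1, by simp⟩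

theorem sgn_single {x : ℝ} (hx : x = -1 ∨ x = 1) : sgn {x} = 1 / 2 := by
  classical
  have h := uniformOn_apply_finset (s := ({-1, 1} : Finset ℝ)) (t := ({x} : Finset ℝ))
  have h2 : ({-1, 1} : Finset ℝ).card = 2 := Finset.card_pair (by norm_num)
  have h1 : ({-1, 1} : Finset ℝ) ∩ {x} = {x} :=
    Finset.inter_singleton_of_mem (by simpa using hx)
  rw [h2, h1, Finset.card_singleton] at h
  simpa using h

/-- the law of the entries on and above the diagonal -/
noncomputable abbrev law (n : ℕ) : Measure (Up n → ℝ) := Measure.pi fun _ => sgn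

theorem law_real (E : Set (Up n → ℝ)) : (law n).real E =
    (((univ.pi fun _ : Up n => ({-1, 1} : Set ℝ)) ∩ E).ncard : ℝ) /
      ((univ.pi fun _ : Up n => ({-1, 1} : Set ℝ)).ncard : ℝ) := by
  have := sgn_prob
  refine real_eq_ratio (law n) (Finite.pi fun _ => toFinite _) ?_
    (c := (1 / 2) ^ Fintype.card (Up n)) (fun x hx => ?_) E
  · rw [prob_compl_eq_zero_iff (MeasurableSet.univ_pi fun _ => (toFinite _).measurableSet),
      Measure.pi_pi]
    exact Finset.prod_eq_one fun _ _ => uniformOn_self (toFinite _) ⟨1, by simp⟩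
  · rw [measureReal_def, ← univ_pi_singleton, Measure.pi_pi,
      Finset.prod_congr rfl fun p _ => sgn_single (hx p (mem_univ p))]
    simp

theorem model (n : ℕ) : IsSignMatrix (law n) sym := by
  have := sgn_prob
  refine ⟨inferInstance, fun x i j => sym_symm x i j, ?_, fun i j h => ?_⟩
  · simp only [sym_up]
    exact iIndepFun_pi (X := fun _ => id) fun _ => aemeasurable_id
  · exact (measurePreserving_eval (fun _ : Up n => sgn) _).hasLaw

theorem IsSignMatrix.hasLaw {Ω : Type*} [MeasurableSpace Ω] {P : Measure Ω}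
    {A : Ω → Matrix (Fin n) (Fin n) ℝ} (h : IsSignMatrix P A) :
    HasLaw (fun ω (p : Up n) => A ω p.1.1 p.1.2) (law n) P := by
  have := h.prob
  have hm : ∀ p : Up n, AEMeasurable (fun ω => A ω p.1.1 p.1.2) P :=
    fun p => (h.unif _ _ p.2).aemeasurable
  refine ⟨aemeasurable_pi_lambda _ hm, ?_⟩
  rw [(iIndepFun_iff_map_fun_eq_pi_map hm).1 h.indep]
  exact congrArg Measure.pi (funext fun p => (h.unif _ _ p.2).map_eq)

theorem IsSignMatrix.sing {Ω : Type*} [MeasurableSpace Ω] {P : Measure Ω}
    {A : Ω → Matrix (Fin n) (Fin n) ℝ} (h : IsSignMatrix P A) :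
    NullMeasurableSet {ω | (A ω).det = 0} P ∧
      P.real {ω | (A ω).det = 0} = (law n).real {x | (sym x).det = 0} := by
  have e : {ω | (A ω).det = 0} = {ω | (sym fun p : Up n => A ω p.1.1 p.1.2).det = 0} := by
    ext ω
    simp only [mem_ofPred_eq, sym_of_symm (h.symm ω)]
  rw [e]
  exact ⟨h.hasLaw.aemeasurable.nullMeasurableSet_preimage measurableSet_sing,
    h.hasLaw.measureReal_eq (p := fun x => (sym x).det = 0) measurableSet_sing⟩

end Vale.Agent.P160R
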