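import Mathlib

/-! # P160: the random symmetric sign matrix on a probability space, definition -/

open MeasureTheory ProbabilityTheory

namespace Vale.Agent.P160R

/-- `A` is a random real symmetric `n × n` matrix on the probability space `(Ω, P)` whose entries on
and above the diagonal are independent and uniform on `{-1, 1}`. -/
structure IsSignMatrix {n : ℕ} {Ω : Type*} [MeasurableSpace Ω] (P : Measure Ω)
    (A : Ω → Matrix (Fin n) (Fin n) ℝ) : Prop where
  prob : IsProbabilityMeasure P
  symm : ∀ ω i j, A ω j i = A ω i j
  indep : iIndepFun (fun (p : {p : Fin n × Fin n // p.1 ≤ p.2}) ω => A ω p.1.1 p.1.2) P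
  unif : ∀ i j, i ≤ j → HasLaw (fun ω => A ω i j) (uniformOn {-1, 1}) P

end Vale.Agent.P160R
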