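import Vale.Agent.P160R67.Core
import Vale.Agent.P160.H884.Final

/-! # P160: Q1 for the random symmetric sign matrix on any probability space -/

open MeasureTheory ProbabilityTheory Set Filter Topology

namespace Vale.Agent.P160R

open Vale.Agent.P160

theorem image_sym (n : ℕ) :
    sym '' (univ.pi fun _ : Up n => ({-1, 1} : Set ℝ)) = H884.TwoPoint (-1) 1 n := by
  ext B
  constructor
  · rintro ⟨x, hx, rfl⟩
    exact ⟨Matrix.ext fun i j => sym_symm x i j, fun i j => hx _ (mem_univ _)⟩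
  · rintro ⟨hs, hB⟩
    exact ⟨fun p => B p.1.1 p.1.2, fun p _ => hB _ _, sym_of_symm fun i j => hs.apply i j⟩

theorem law_sing (n : ℕ) : (law n).real {x | (sym x).det = 0} = H884.q n := by
  have h1 : (law n).real {x | (sym x).det = 0} =
      H884.pr (H884.TwoPoint (-1) 1 n) {B | B.det = 0} := by
    rw [law_real, H884.pr, ← image_sym, ncard_image_of_injective _ sym_injective,
      ← image_inter_preimage, ncard_image_of_injective _ sym_injective]
    rfl
  rw [h1, H884.pr_two (by norm_num), H884.q_eq_prob]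
  congr 1
  ext c
  simp only [mem_ofPred_eq, H884.twoMat_neg, one_smul, H884.det_map_cast, Int.cast_eq_zero]

theorem main : ∃ q : ℕ → ℝ,
    (∀ n : ℕ, ∃ (Ω : Type) (_ : MeasurableSpace Ω) (P : Measure Ω)
      (A : Ω → Matrix (Fin n) (Fin n) ℝ), IsSignMatrix P A) ∧
    (∀ (n : ℕ) (Ω : Type*) [MeasurableSpace Ω] (P : Measure Ω) (A : Ω → Matrix (Fin n) (Fin n) ℝ),
      IsSignMatrix P A →
        NullMeasurableSet {ω | (A ω).det = 0} P ∧ P.real {ω | (A ω).det = 0} = q n) ∧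
    Tendsto (fun n : ℕ => q n ^ (1 / (n : ℝ))) atTop (𝓝 (1 / 2)) ∧
    (∀ c : ℝ, 1 / 2 < c → ∀ᶠ n : ℕ in atTop, q n ≤ c ^ n) ∧
    ∀ ε : ℝ, 0 < ε → ∀ᶠ n : ℕ in atTop, (1 - ε) * (n : ℝ) ^ 2 * (1 / 2) ^ n ≤ q n :=
  ⟨H884.q, fun n => ⟨_, inferInstance, law n, sym, model n⟩,
    fun n _ _ _ _ h => ⟨h.sing.1, h.sing.2.trans (law_sing n)⟩, H884.main.1⟩

end Vale.Agent.P160R
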